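import Vale.Agent.P080C1.Props

/-!
Square summability over dyadic scales of second differences. The elementary identity
`|second difference|² = 4 |first difference|² - |first difference at double step|²`, valid after
integration in the base point, makes the dyadic sum telescope.
-/

noncomputable section

open MeasureTheory Filter Topology Metric
open scoped RealInnerProductSpace

namespace Vale.Agent.P080C1.Dorronsoro

/-- The squared first difference, integrated in the base point. -/
def fd1 (g : E3 → ℝ) (w : E3) : ℝ := ∫ y, (g (y + w) - g y) ^ 2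

theorem memLp_two {g : E3 → ℝ} (hg : Continuous g) (hs : HasCompactSupport g) (w : E3) :
    MemLp (fun y => g (y + w)) 2 (volume : Measure E3) :=
  (hg.memLp_of_hasCompactSupport hs).comp_measurePreserving (measurePreserving_add_right volume w)

theorem integrable_sq_diff {g : E3 → ℝ} (hg : Continuous g) (hs : HasCompactSupport g) (v w : E3) :
    Integrable (fun y => (g (y + v) - g (y + w)) ^ 2) := by
  simpa using ((memLp_two hg hs v).sub (memLp_two hg hs w)).integrable_sq

theorem integral_shift {g : E3 → ℝ} (v w : E3) :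
    (∫ y, (g (y + v) - g (y + w)) ^ 2) = fd1 g (v - w) := by
  rw [fd1, ← integral_add_right_eq_self (fun y => (g (y + (v - w)) - g y) ^ 2) w]
  refine integral_congr_ae (Eventually.of_forall fun y => ?_)
  have h : y + w + (v - w) = y + v := by abel
  simp only [h]

theorem diff2_identity {g : E3 → ℝ} (hg : Continuous g) (hs : HasCompactSupport g) (w : E3) :
    (∫ y, diff2 g w y ^ 2) = 4 * fd1 g w - fd1 g ((2 : ℝ) • w) := by
  have e : ∀ y, diff2 g w y ^ 2 = 2 * (g (y + w) - g (y + 0)) ^ 2
      + 2 * (g (y + 0) - g (y + -w)) ^ 2 - (g (y + w) - g (y + -w)) ^ 2 := by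
    intro y
    simp only [diff2, add_zero, ← sub_eq_add_neg]
    ring
  simp only [e]
  have i1 : Integrable (fun y => 2 * (g (y + w) - g (y + 0)) ^ 2
      + 2 * (g (y + 0) - g (y + -w)) ^ 2) :=
    ((integrable_sq_diff hg hs w 0).const_mul 2).add
      ((integrable_sq_diff hg hs 0 (-w)).const_mul 2)
  rw [integral_sub i1 (integrable_sq_diff hg hs w (-w)),
    integral_add ((integrable_sq_diff hg hs w 0).const_mul 2)
      ((integrable_sq_diff hg hs 0 (-w)).const_mul 2),
    integral_const_mul, integral_const_mul, integral_shift, integral_shift, integral_shift]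
  simp only [sub_zero, zero_add, sub_neg_eq_add, two_smul]
  ring

/-- Translation moves a function in `L²` by at most the length of the step times the norm of the
derivative. -/
theorem fd1_le {g : E3 → ℝ} (hg : ContDiff ℝ 1 g) (hs : HasCompactSupport g) (w : E3) :
    fd1 g w ≤ ‖w‖ ^ 2 * ∫ y, ‖fderiv ℝ g y‖ ^ 2 := by
  have hd : Continuous (fderiv ℝ g) := hg.continuous_fderiv one_ne_zero
  have hq : Continuous (fun z => ‖fderiv ℝ g z‖ ^ 2) := hd.norm.pow 2
  have hqs : HasCompactSupport (fun z => ‖fderiv ℝ g z‖ ^ 2) :=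
    (hs.fderiv ℝ).comp_left (g := fun L : E3 →L[ℝ] ℝ => ‖L‖ ^ 2) (by simp)
  have hqi : Integrable (fun z => ‖fderiv ℝ g z‖ ^ 2) := hq.integrable_of_hasCompactSupport hqs
  let F : ℝ → E3 → ℝ := fun t y => ‖fderiv ℝ g (y + t • w)‖ ^ 2
  have hF : Continuous (Function.uncurry F) :=
    hq.comp (continuous_snd.add (continuous_fst.smul continuous_const))
  have hFi : Integrable (Function.uncurry F)
      ((volume.restrict (Set.Icc (0 : ℝ) 1)).prod (volume : Measure E3)) := by
    rw [integrable_prod_iff hF.aestronglyMeasurable]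
    refine ⟨Eventually.of_forall fun t => ?_, ?_⟩
    · exact hqi.comp_add_right (t • w)
    · have : (fun t => ∫ y, ‖Function.uncurry F (t, y)‖) = fun _ => ∫ y, ‖fderiv ℝ g y‖ ^ 2 := by
        funext t
        simp only [Function.uncurry_apply_pair, F, Real.norm_eq_abs, abs_pow, abs_norm]
        exact integral_add_right_eq_self (fun y => ‖fderiv ℝ g y‖ ^ 2) (t • w)
      rw [this]
      exact integrable_const _
  have key : ∀ y, (g (y + w) - g y) ^ 2 ≤
      ‖w‖ ^ 2 * ∫ t in Set.Icc (0 : ℝ) 1, F t y := by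
    intro y
    let f : ℝ → ℝ := fun t => fderiv ℝ g (y + t • w) w
    have hf : Continuous f :=
      (hd.comp (continuous_const.add (continuous_id.smul continuous_const))).clm_apply
        continuous_const
    have hftc : g (y + w) - g y = ∫ t in (0 : ℝ)..1, f t := by
      rw [intervalIntegral.integral_eq_sub_of_hasDerivAt (f := fun t => g (y + t • w))]
      · simp
      · intro t _
        have h1 : HasDerivAt (fun t : ℝ => y + t • w) w t := by
          simpa using ((hasDerivAt_id t).smul_const w).const_add y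
        exact ((hg.differentiable one_ne_zero).differentiableAt.hasFDerivAt).comp_hasDerivAt t h1
      · exact hf.intervalIntegrable _ _
    rw [intervalIntegral.integral_of_le zero_le_one, ← integral_Icc_eq_integral_Ioc] at hftc
    rw [hftc]
    set μ := (volume : Measure ℝ).restrict (Set.Icc (0 : ℝ) 1)
    set c := ∫ t, f t ∂μ
    have hfi : Integrable f μ := hf.integrableOn_Icc
    have hf2 : Integrable (fun t => f t ^ 2) μ := (hf.pow 2).integrableOn_Icc
    have hvar : 0 ≤ ∫ t, (f t - c) ^ 2 ∂μ := integral_nonneg fun t => sq_nonneg _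
    have hμ : μ.real Set.univ = 1 := by simp [μ, Measure.real, Real.volume_Icc]
    have e : (fun t => (f t - c) ^ 2) = fun t => f t ^ 2 - 2 * c * f t + c ^ 2 := by
      funext t; ring
    have hc : Integrable (fun _ : ℝ => c ^ 2) μ := integrable_const _
    have h1 : Integrable (fun t => f t ^ 2 - 2 * c * f t) μ := hf2.sub (hfi.const_mul _)
    rw [e, integral_add h1 hc, integral_sub hf2 (hfi.const_mul _),
      integral_const_mul, integral_const, hμ, smul_eq_mul] at hvar
    have hmono : (∫ t, f t ^ 2 ∂μ) ≤ ∫ t, ‖w‖ ^ 2 * F t y ∂μ := by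
      refine integral_mono hf2 ?_ fun t => ?_
      · exact ((hF.comp (continuous_id.prodMk continuous_const)).const_smul
          (‖w‖ ^ 2)).integrableOn_Icc
      · have := (fderiv ℝ g (y + t • w)).le_opNorm w
        simp only [f, F]
        rw [← mul_pow, mul_comm, ← sq_abs]
        exact pow_le_pow_left₀ (abs_nonneg _) this 2
    rw [integral_const_mul] at hmono
    nlinarith [hvar, hmono]
  have hR : Integrable (fun y => ‖w‖ ^ 2 * ∫ t in Set.Icc (0 : ℝ) 1, F t y) :=
    hFi.integral_prod_right.const_mul _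
  calc fd1 g w ≤ ∫ y, ‖w‖ ^ 2 * ∫ t in Set.Icc (0 : ℝ) 1, F t y := by
        refine integral_mono ?_ hR key
        simpa using integrable_sq_diff hg.continuous hs w 0
    _ = ‖w‖ ^ 2 * ∫ t in Set.Icc (0 : ℝ) 1, ∫ y, F t y := by
        rw [integral_const_mul, integral_integral_swap hFi]
    _ = ‖w‖ ^ 2 * ∫ y, ‖fderiv ℝ g y‖ ^ 2 := by
        congr 1
        simp only [F]
        simp_rw [integral_add_right_eq_self (fun y => ‖fderiv ℝ g y‖ ^ 2)]
        simp [Measure.real, Real.volume_Icc]

theorem fd1_nonneg (g : E3 → ℝ) (w : E3) : 0 ≤ fd1 g w := integral_nonneg fun _ => sq_nonneg _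

theorem fd1_measurable {g : E3 → ℝ} (hg : Continuous g) :
    StronglyMeasurable (fd1 g) := by
  have : Continuous (Function.uncurry fun w y => (g (y + w) - g y) ^ 2) :=
    ((hg.comp (continuous_snd.add continuous_fst)).sub (hg.comp continuous_snd)).pow 2
  exact this.stronglyMeasurable.integral_prod_right

theorem fd1_integrableOn {g : E3 → ℝ} (hg : ContDiff ℝ 1 g) (hs : HasCompactSupport g) (a : ℝ) :
    IntegrableOn (fd1 g) (ball (0 : E3) a) := by
  refine Measure.integrableOn_of_bounded measure_ball_lt_top.ne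
    (fd1_measurable hg.continuous).aestronglyMeasurable
    (M := a ^ 2 * ∫ y, ‖fderiv ℝ g y‖ ^ 2) ?_
  refine ae_restrict_of_forall_mem measurableSet_ball fun w hw => ?_
  rw [Real.norm_of_nonneg (fd1_nonneg g w)]
  refine (fd1_le hg hs w).trans (mul_le_mul_of_nonneg_right ?_
    (integral_nonneg fun _ => sq_nonneg _))
  exact pow_le_pow_left₀ (norm_nonneg w) (le_of_lt (mem_ball_zero_iff.mp hw)) 2

/-- The mean of `fd1` over a ball, divided by the squared radius. -/
def dav (g : E3 → ℝ) (a : ℝ) : ℝ :=
  (∫ w in ball (0 : E3) a, fd1 g w) / (a ^ 2 * volume.real (ball (0 : E3) a))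

theorem testQ_eq {g : E3 → ℝ} (hg : ContDiff ℝ 1 g) (hs : HasCompactSupport g) {a : ℝ}
    (ha : 0 < a) : testQ g Set.univ a = 4 * (dav g a - dav g (2 * a)) := by
  have hsc := Measure.setIntegral_comp_smul_of_pos (volume : Measure E3) (fd1 g) (ball (0 : E3) a)
    (two_pos : (0 : ℝ) < 2)
  rw [smul_ball (two_ne_zero), smul_zero, Real.norm_ofNat, finrank_euclideanSpace_fin] at hsc
  have h2 : IntegrableOn (fun w : E3 => fd1 g ((2 : ℝ) • w)) (ball (0 : E3) a) := by
    have h := (integrable_comp_smul_iff (volume : Measure E3)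
      ((ball (0 : E3) (2 * a)).indicator (fd1 g)) (two_ne_zero : (2 : ℝ) ≠ 0)).mpr
      ((fd1_integrableOn hg hs (2 * a)).integrable_indicator measurableSet_ball)
    rw [← integrable_indicator_iff measurableSet_ball]
    refine h.congr (Eventually.of_forall fun w => ?_)
    have hiff : ((2 : ℝ) • w ∈ ball (0 : E3) (2 * a)) ↔ w ∈ ball (0 : E3) a := by
      rw [mem_ball_zero_iff, mem_ball_zero_iff, norm_smul, Real.norm_ofNat]
      constructor <;> intro <;> linarith
    by_cases hw : w ∈ ball (0 : E3) a
    · simp [Set.indicator_of_mem hw, Set.indicator_of_mem (hiff.mpr hw)]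
    · simp [Set.indicator_of_notMem hw, Set.indicator_of_notMem (hiff.not.mpr hw)]
  have hball : volume.real (ball (0 : E3) (2 * a)) = 2 ^ 3 * volume.real (ball (0 : E3) a) := by
    rw [measureReal_def, Measure.addHaar_ball_mul_of_pos (volume : Measure E3) 0 two_pos,
      ENNReal.toReal_mul, ENNReal.toReal_ofReal (by positivity), finrank_euclideanSpace_fin]
    rfl
  unfold testQ dav
  simp only [Measure.restrict_univ, diff2_identity hg.continuous hs]
  rw [integral_sub ((fd1_integrableOn hg hs a).const_mul 4) h2, integral_const_mul, hsc,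
    hball, smul_eq_mul]
  have hv : 0 < volume.real (ball (0 : E3) a) :=
    ENNReal.toReal_pos (measure_ball_pos volume 0 ha).ne' measure_ball_lt_top.ne
  field_simp
  ring

theorem dav_nonneg (g : E3 → ℝ) (a : ℝ) : 0 ≤ dav g a :=
  div_nonneg (setIntegral_nonneg measurableSet_ball fun _ _ => fd1_nonneg g _)
    (mul_nonneg (sq_nonneg a) measureReal_nonneg)

theorem dav_le {g : E3 → ℝ} (hg : ContDiff ℝ 1 g) (hs : HasCompactSupport g) (a : ℝ) :
    dav g a ≤ ∫ y, ‖fderiv ℝ g y‖ ^ 2 := by
  set E := ∫ y, ‖fderiv ℝ g y‖ ^ 2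
  have hE : 0 ≤ E := integral_nonneg fun _ => sq_nonneg _
  refine div_le_of_le_mul₀ (mul_nonneg (sq_nonneg a) measureReal_nonneg) hE ?_
  calc ∫ w in ball (0 : E3) a, fd1 g w ≤ ∫ _w in ball (0 : E3) a, a ^ 2 * E := by
        refine setIntegral_mono_on (fd1_integrableOn hg hs a)
          (integrableOn_const measure_ball_lt_top.ne) measurableSet_ball fun w hw => ?_
        refine (fd1_le hg hs w).trans (mul_le_mul_of_nonneg_right ?_ hE)
        exact pow_le_pow_left₀ (norm_nonneg w) (le_of_lt (mem_ball_zero_iff.mp hw)) 2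
    _ = E * (a ^ 2 * volume.real (ball (0 : E3) a)) := by
        rw [setIntegral_const, smul_eq_mul]; ring

theorem dorronsoro : DorronsoroProp := by
  refine ⟨4, by norm_num, fun g a₀ N ha hg hs => ?_⟩
  have hpos : ∀ j : ℕ, 0 < a₀ / 2 ^ j := fun j => div_pos ha (pow_pos two_pos j)
  let D : ℕ → ℝ := fun j => dav g (2 * (a₀ / 2 ^ j))
  have hstep : ∀ j : ℕ, testQ g Set.univ (a₀ / 2 ^ j) = 4 * (D (j + 1) - D j) := by
    intro j
    have e : 2 * (a₀ / 2 ^ (j + 1)) = a₀ / 2 ^ j := by rw [pow_succ]; field_simp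
    simp only [D, e]
    exact testQ_eq hg hs (hpos j)
  simp only [hstep]
  rw [← Finset.mul_sum, Finset.sum_range_sub D]
  simp only [D]
  nlinarith [dav_le hg hs (2 * (a₀ / 2 ^ N)), dav_nonneg g (2 * (a₀ / 2 ^ 0))]

end Vale.Agent.P080C1.Dorronsoro
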